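import Mathlib

set_option autoImplicit false

/-! Fox expansion of a commutator along a word of a free group, and the last-letter sets. -/

namespace Vale.Agent.P086

open FreeGroup (of)

section Terms

variable {κ : Type*}

/-- The list of Fox terms `(j, b, sign)` attached to a word. -/
def terms : List (κ × Bool) → List (κ × FreeGroup κ × ℂ)
  | [] => []
  | ((k, true) :: L) => (k, (FreeGroup.mk L)⁻¹, 1) :: terms L
  | ((k, false) :: L) => (k, (FreeGroup.mk L)⁻¹ * FreeGroup.of k, -1) :: terms L

theorem terms_length (L : List (κ × Bool)) : (terms L).length = L.length := by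
  induction L with
  | nil => rfl
  | cons c L ih =>
    obtain ⟨k, s⟩ := c
    cases s <;> simp [terms, ih]

theorem terms_norm_sign (L : List (κ × Bool)) : ∀ t ∈ terms L, ‖t.2.2‖ = 1 := by
  induction L with
  | nil => simp [terms]
  | cons c L ih =>
    obtain ⟨k, s⟩ := c
    cases s <;> simp only [terms, List.mem_cons, forall_eq_or_imp] <;>
      exact ⟨by simp, ih⟩

theorem mk_cons_true (k : κ) (L : List (κ × Bool)) :
    (FreeGroup.mk ((k, true) :: L)) = FreeGroup.of k * FreeGroup.mk L := by
  rw [FreeGroup.of, FreeGroup.mul_mk]; rfl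

theorem mk_cons_false (k : κ) (L : List (κ × Bool)) :
    (FreeGroup.mk ((k, false) :: L)) = (FreeGroup.of k)⁻¹ * FreeGroup.mk L := by
  rw [FreeGroup.of, FreeGroup.inv_mk, FreeGroup.mul_mk]; rfl

theorem sum_fox_mul_left {A : Type*} [Ring A] [Algebra ℂ A] (y : FreeGroup κ →* A) (T : A)
    (g h : FreeGroup κ) (l : List (κ × FreeGroup κ × ℂ)) :
    (l.map fun t => t.2.2 • (y (g * h * t.2.1 * (FreeGroup.of t.1)⁻¹) *
        (T * y (FreeGroup.of t.1) - y (FreeGroup.of t.1) * T) * y t.2.1⁻¹)).sum =
    y g * (l.map fun t => t.2.2 • (y (h * t.2.1 * (FreeGroup.of t.1)⁻¹) *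
        (T * y (FreeGroup.of t.1) - y (FreeGroup.of t.1) * T) * y t.2.1⁻¹)).sum := by
  rw [← List.sum_map_mul_left]
  congr 1
  apply List.map_congr_left
  intro t _
  have : g * h * t.2.1 * (of t.1)⁻¹ = g * (h * t.2.1 * (of t.1)⁻¹) := by group
  rw [this, _root_.map_mul, mul_smul_comm]
  congr 1
  noncomm_ring

/-- Fox expansion of the commutator `[T, y h]`. -/
theorem fox {A : Type*} [Ring A] [Algebra ℂ A] (y : FreeGroup κ →* A) (T : A)
    (L : List (κ × Bool)) :
    T * y (FreeGroup.mk L) - y (FreeGroup.mk L) * T =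
      ((terms L).map fun t => t.2.2 • (y (FreeGroup.mk L * t.2.1 * (FreeGroup.of t.1)⁻¹) *
        (T * y (FreeGroup.of t.1) - y (FreeGroup.of t.1) * T) * y t.2.1⁻¹)).sum := by
  induction L with
  | nil =>
    have h1 : (FreeGroup.mk ([] : List (κ × Bool))) = 1 := rfl
    simp [terms, h1]
  | cons c L ih =>
    obtain ⟨k, s⟩ := c
    cases s
    · rw [terms, List.map_cons, List.sum_cons, mk_cons_false, sum_fox_mul_left, ← ih]
      set h : FreeGroup κ := FreeGroup.mk L with hh
      have e1 : y ((of k)⁻¹) * y (of k) = 1 := by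
        rw [← _root_.map_mul, inv_mul_cancel, _root_.map_one]
      have e2 : y (of k) * y ((of k)⁻¹) = 1 := by
        rw [← _root_.map_mul, mul_inv_cancel, _root_.map_one]
      have a1 : (of k)⁻¹ * h * (h⁻¹ * of k) * (of k)⁻¹ = (of k)⁻¹ := by group
      have a2 : (h⁻¹ * of k)⁻¹ = (of k)⁻¹ * h := by group
      simp only [a1, a2]
      have : y ((of k)⁻¹) * (T * y (of k) - y (of k) * T) * y ((of k)⁻¹ * h) =
          y ((of k)⁻¹) * T * y h - T * y ((of k)⁻¹ * h) := by
        rw [_root_.map_mul]
        calc y ((of k)⁻¹) * (T * y (of k) - y (of k) * T) * (y ((of k)⁻¹) * y h)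
            = y ((of k)⁻¹) * T * (y (of k) * y ((of k)⁻¹)) * y h
              - (y ((of k)⁻¹) * y (of k)) * T * (y ((of k)⁻¹) * y h) := by noncomm_ring
          _ = _ := by rw [e1, e2]; noncomm_ring
      rw [this, _root_.map_mul]
      simp only [neg_smul, one_smul]
      noncomm_ring
    · rw [terms, List.map_cons, List.sum_cons, mk_cons_true, sum_fox_mul_left, ← ih]
      set h : FreeGroup κ := FreeGroup.mk L with hh
      have a1 : of k * h * h⁻¹ * (of k)⁻¹ = 1 := by group
      simp only [a1, inv_inv, _root_.map_one, one_mul, one_smul, _root_.map_mul]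
      noncomm_ring

end Terms

section Last

variable {κ : Type*} [DecidableEq κ]

/-- Reduced words whose last letter is the generator `i`. -/
def lastSet (i : κ) : Set (FreeGroup κ) := {g | g.toWord.getLast? = some (i, true)}

theorem one_notMem_lastSet (i : κ) : (1 : FreeGroup κ) ∉ lastSet i := by
  simp [lastSet]

theorem of_mul_mem_lastSet (k i : κ) (g : FreeGroup κ) :
    FreeGroup.of k * g ∈ lastSet i ↔ g ∈ lastSet i ∨ (g = 1 ∧ k = i) := by
  have hw : (FreeGroup.of k * g).toWord = FreeGroup.reduce ((k, true) :: g.toWord) := by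
    rw [FreeGroup.toWord_mul, FreeGroup.toWord_of]; rfl
  simp only [lastSet, Set.mem_ofPred_eq, hw, FreeGroup.reduce.cons, FreeGroup.reduce_toWord]
  rcases hg : g.toWord with _ | ⟨c, tl⟩
  · have : g = 1 := FreeGroup.toWord_eq_nil_iff.mp hg
    subst this
    simp
  · have hne : g ≠ 1 := by
      intro h; rw [FreeGroup.toWord_eq_nil_iff.mpr h] at hg; exact absurd hg (by simp)
    simp only [hne, false_and, or_false]
    obtain ⟨a, s⟩ := c
    by_cases hc : (k, true).1 = (a, s).1 ∧ (k, true).2 = !(a, s).2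
    · rw [if_pos hc]
      obtain ⟨rfl, h2⟩ := hc
      have hs : s = false := by simpa using h2
      subst hs
      rcases tl with _ | ⟨d, tl'⟩
      · simp
      · simp [List.getLast?_cons_cons]
    · rw [if_neg hc]
      simp [List.getLast?_cons_cons]

end Last

end Vale.Agent.P086
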