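import Mathlib
import Vale.Agent.Lib.P086.Fox

set_option autoImplicit false

/-! Two free families in one tracial algebra: dual systems. -/

namespace Vale.Agent.P086

open FreeGroup (of)

variable {𝓗 : Type*} [NormedAddCommGroup 𝓗] [InnerProductSpace ℂ 𝓗] [CompleteSpace 𝓗]

/-- `Ω` is a unit trace vector for the algebra `M`. -/
structure IsTraceVec (M : StarSubalgebra ℂ (𝓗 →L[ℂ] 𝓗)) (Ω : 𝓗) : Prop where
  norm_one : ‖Ω‖ = 1
  comm : ∀ x ∈ M, ∀ y ∈ M, inner ℂ Ω ((x * y) Ω) = inner ℂ Ω ((y * x) Ω)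

/-- A free family of unitaries in `M` whose words form an orthonormal basis. -/
structure Fam (M : StarSubalgebra ℂ (𝓗 →L[ℂ] 𝓗)) (Ω : 𝓗) (ι : Type*) where
  u : FreeGroup ι →* (𝓗 →L[ℂ] 𝓗)
  mem : ∀ g, u g ∈ M
  star_u : ∀ g, star (u g) = u g⁻¹
  b : HilbertBasis (FreeGroup ι) ℂ 𝓗
  b_eq : ∀ g, b g = u g Ω

section trace

variable {M : StarSubalgebra ℂ (𝓗 →L[ℂ] 𝓗)} {Ω : 𝓗}

theorem inner_star_left (x : 𝓗 →L[ℂ] 𝓗) (v w : 𝓗) : inner ℂ (star x v) w = inner ℂ v (x w) := by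
  rw [ContinuousLinearMap.star_eq_adjoint, ContinuousLinearMap.adjoint_inner_left]

theorem inner_star_right (x : 𝓗 →L[ℂ] 𝓗) (v w : 𝓗) : inner ℂ v (star x w) = inner ℂ (x v) w := by
  rw [ContinuousLinearMap.star_eq_adjoint, ContinuousLinearMap.adjoint_inner_right]

theorem IsTraceVec.norm_star (hΩ : IsTraceVec M Ω) {x : 𝓗 →L[ℂ] 𝓗} (hx : x ∈ M) :
    ‖star x Ω‖ = ‖x Ω‖ := by
  have h1 : (inner ℂ (star x Ω) (star x Ω) : ℂ) = inner ℂ (x Ω) (x Ω) := by
    have := hΩ.comm x hx (star x) (star_mem hx)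
    simp only [mul_apply_eq_comp] at this
    rw [inner_star_left, this, inner_star_right]
  have h2 := congrArg Complex.re h1
  rw [inner_self_eq_norm_sq_to_K, inner_self_eq_norm_sq_to_K] at h2
  norm_cast at h2
  exact (sq_eq_sq₀ (norm_nonneg _) (norm_nonneg _)).mp h2

theorem IsTraceVec.norm_mul_unitary (hΩ : IsTraceVec M Ω) {x v : 𝓗 →L[ℂ] 𝓗} (hx : x ∈ M)
    (hv : v ∈ M) (hv1 : v * star v = 1) : ‖x (v Ω)‖ = ‖x Ω‖ := by
  have h1 : (inner ℂ (x (v Ω)) (x (v Ω)) : ℂ) = inner ℂ (x Ω) (x Ω) := by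
    have := hΩ.comm (star v) (star_mem hv) (star x * x * v)
      (mul_mem (mul_mem (star_mem hx) hx) hv)
    have e2 : star x * x * v * star v = star x * x := by rw [mul_assoc, hv1, mul_one]
    rw [e2] at this
    simp only [mul_apply_eq_comp] at this
    rw [inner_star_right, inner_star_right, inner_star_right] at this
    exact this
  have h2 := congrArg Complex.re h1
  rw [inner_self_eq_norm_sq_to_K, inner_self_eq_norm_sq_to_K] at h2
  norm_cast at h2
  exact (sq_eq_sq₀ (norm_nonneg _) (norm_nonneg _)).mp h2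

end trace

namespace Fam

variable {M : StarSubalgebra ℂ (𝓗 →L[ℂ] 𝓗)} {Ω : 𝓗} {ι : Type*}

theorem u_mul_star (F : Fam M Ω ι) (g : FreeGroup ι) : F.u g * star (F.u g) = 1 := by
  rw [F.star_u, ← _root_.map_mul, mul_inv_cancel, _root_.map_one]

theorem star_mul_u (F : Fam M Ω ι) (g : FreeGroup ι) : star (F.u g) * F.u g = 1 := by
  rw [F.star_u, ← _root_.map_mul, inv_mul_cancel, _root_.map_one]

theorem norm_u_apply (F : Fam M Ω ι) (g : FreeGroup ι) (x : 𝓗) : ‖F.u g x‖ = ‖x‖ := by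
  have h1 : (inner ℂ (F.u g x) (F.u g x) : ℂ) = inner ℂ x x := by
    rw [← inner_star_right, ← mul_apply_eq_comp, F.star_mul_u,
      one_apply_eq_self]
  have h2 := congrArg Complex.re h1
  rw [inner_self_eq_norm_sq_to_K, inner_self_eq_norm_sq_to_K] at h2
  norm_cast at h2
  exact (sq_eq_sq₀ (norm_nonneg _) (norm_nonneg _)).mp h2

theorem norm_u_le (F : Fam M Ω ι) (g : FreeGroup ι) : ‖F.u g‖ ≤ 1 :=
  ContinuousLinearMap.opNorm_le_bound _ zero_le_one fun x => by rw [F.norm_u_apply, one_mul]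

theorem u_b (F : Fam M Ω ι) (g h : FreeGroup ι) : F.u g (F.b h) = F.b (g * h) := by
  rw [F.b_eq, F.b_eq, _root_.map_mul, mul_apply_eq_comp]

theorem b_one (F : Fam M Ω ι) : F.b 1 = Ω := by
  rw [F.b_eq, _root_.map_one, one_apply_eq_self]

theorem ext_b (F : Fam M Ω ι) {x y : 𝓗 →L[ℂ] 𝓗} (h : ∀ g, x (F.b g) = y (F.b g)) : x = y := by
  refine ContinuousLinearMap.ext_on (s := Set.range F.b) ?_ ?_
  · exact Submodule.dense_iff_topologicalClosure_eq_top.mpr F.b.dense_span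
  · rintro _ ⟨g, rfl⟩
    exact h g


/-- rank one projection onto the trace vector -/
noncomputable def P (Ω : 𝓗) : 𝓗 →L[ℂ] 𝓗 := (innerSL ℂ Ω).smulRight Ω

omit [CompleteSpace 𝓗] in
theorem P_apply (Ω x : 𝓗) : P Ω x = (inner ℂ Ω x : ℂ) • Ω := rfl

variable [DecidableEq ι]

/-- closed span of the words ending with `i` -/
def K (F : Fam M Ω ι) (i : ι) : Submodule ℂ 𝓗 :=
  (Submodule.span ℂ (F.b '' lastSet i)).topologicalClosure

instance (F : Fam M Ω ι) (i : ι) : (F.K i).HasOrthogonalProjection := by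
  unfold K; infer_instance

/-- The dual operator: orthogonal projection onto the words ending with `i`. -/
noncomputable def T (F : Fam M Ω ι) (i : ι) : 𝓗 →L[ℂ] 𝓗 := (F.K i).starProjection

theorem T_of_mem (F : Fam M Ω ι) {i : ι} {g : FreeGroup ι} (hg : g ∈ lastSet i) :
    F.T i (F.b g) = F.b g := by
  unfold T
  rw [Submodule.starProjection_eq_self_iff]
  exact Submodule.le_topologicalClosure _ (Submodule.subset_span ⟨g, hg, rfl⟩)

theorem T_of_notMem (F : Fam M Ω ι) {i : ι} {g : FreeGroup ι} (hg : g ∉ lastSet i) :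
    F.T i (F.b g) = 0 := by
  unfold T
  rw [Submodule.starProjection_apply_eq_zero_iff]
  unfold K
  rw [Submodule.orthogonal_closure, Submodule.mem_orthogonal]
  intro v hv
  induction hv using Submodule.span_induction with
  | mem x hx =>
    obtain ⟨g', hg', rfl⟩ := hx
    refine F.b.orthonormal.inner_eq_zero ?_
    rintro rfl
    exact hg hg'
  | zero => exact inner_zero_left _
  | add x y _ _ hx hy => rw [inner_add_left, hx, hy, add_zero]
  | smul a x _ hx => rw [inner_smul_left, hx, mul_zero]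

theorem norm_T_apply_le (F : Fam M Ω ι) (i : ι) (x : 𝓗) : ‖F.T i x‖ ≤ ‖x‖ := by
  have := (F.T i).le_opNorm x
  refine this.trans ?_
  have h1 : ‖F.T i‖ ≤ 1 := Submodule.starProjection_norm_le _
  calc _ ≤ 1 * ‖x‖ := mul_le_mul_of_nonneg_right h1 (norm_nonneg _)
    _ = _ := one_mul _

theorem star_T (F : Fam M Ω ι) (i : ι) : star (F.T i) = F.T i :=
  isSelfAdjoint_starProjection _

theorem T_Ω (F : Fam M Ω ι) (i : ι) : F.T i Ω = 0 := by
  have := F.T_of_notMem (one_notMem_lastSet i)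
  rwa [F.b_one] at this

omit [DecidableEq ι] in
theorem inner_Ω_self (F : Fam M Ω ι) : (inner ℂ Ω Ω : ℂ) = 1 := by
  have h := inner_self_eq_norm_sq_to_K (𝕜 := ℂ) (F.b 1)
  rw [F.b.orthonormal.1 1, F.b_one] at h
  simpa using h

omit [DecidableEq ι] in
theorem inner_Ω_b (F : Fam M Ω ι) {g : FreeGroup ι} (hg : g ≠ 1) :
    (inner ℂ Ω (F.b g) : ℂ) = 0 := by
  have h := F.b.orthonormal.inner_eq_zero (i := 1) (j := g) (fun h => hg h.symm)
  rwa [F.b_one] at h

theorem comm_T (F : Fam M Ω ι) (i k : ι) :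
    F.T i * F.u (of k) - F.u (of k) * F.T i = if k = i then F.u (of k) * P Ω else 0 := by
  refine F.ext_b fun g => ?_
  rw [sub_apply, mul_apply_eq_comp, mul_apply_eq_comp, F.u_b]
  have hiff := of_mul_mem_lastSet k i g
  have hR : (if k = i then F.u (of k) * P Ω else 0) (F.b g) =
      if g = 1 ∧ k = i then F.b (of k * g) else 0 := by
    by_cases hk : k = i
    · rw [if_pos hk, mul_apply_eq_comp, P_apply]
      by_cases hg : g = 1
      · rw [if_pos ⟨hg, hk⟩, hg, F.b_one, mul_one, F.inner_Ω_self, one_smul, F.b_eq]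
      · rw [if_neg (fun h => hg h.1), F.inner_Ω_b hg, zero_smul, map_zero]
    · rw [if_neg hk, if_neg (fun h => hk h.2), zero_apply]
  rw [hR]
  by_cases h1 : g ∈ lastSet i
  · have hg1 : ¬ (g = 1 ∧ k = i) := by
      rintro ⟨rfl, _⟩; exact one_notMem_lastSet i h1
    rw [F.T_of_mem h1, F.T_of_mem (hiff.mpr (Or.inl h1)), if_neg hg1, F.u_b, sub_self]
  · rw [F.T_of_notMem h1, map_zero, sub_zero]
    by_cases h2 : g = 1 ∧ k = i
    · rw [if_pos h2, F.T_of_mem (hiff.mpr (Or.inr h2))]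
    · rw [if_neg h2, F.T_of_notMem (fun h => (hiff.mp h).elim h1 h2)]

/-- Fox expansion of the commutator with a dual operator. -/
theorem fox_T (F : Fam M Ω ι) (i : ι) (g : FreeGroup ι) :
    F.T i * F.u g - F.u g * F.T i =
      ((terms g.toWord).map fun t => if t.1 = i then
        t.2.2 • (F.u (g * t.2.1) * P Ω * F.u t.2.1⁻¹) else 0).sum := by
  have h := fox F.u (F.T i) g.toWord
  rw [FreeGroup.mk_toWord] at h
  rw [h]
  congr 1
  apply List.map_congr_left
  intro t _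
  rw [F.comm_T]
  by_cases ht : t.1 = i
  · rw [if_pos ht, if_pos ht, ← mul_assoc, ← _root_.map_mul]
    congr 4
    group
  · rw [if_neg ht, if_neg ht, mul_zero, zero_mul, smul_zero]

end Fam

end Vale.Agent.P086
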