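import Mathlib

set_option autoImplicit false

/-! Group von Neumann algebras, realised on a Hilbert space with an orthonormal basis
indexed by the group. -/

namespace Vale.Agent.P086

variable {G : Type*} [Group G] {H : Type*} [NormedAddCommGroup H] [InnerProductSpace ℂ H]

/-- The left translation operators of `G` on a Hilbert space with orthonormal basis
`(δ_h)_{h ∈ G}`: the bounded operators `x` such that for some `g ∈ G` one has
`x δ_h = δ_{gh}` for all `h`. -/
def leftTranslations (δ : HilbertBasis G ℂ H) : Set (H →L[ℂ] H) :=
  {x | ∃ g : G, ∀ h : G, x (δ h) = δ (g * h)}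

/-- The group von Neumann algebra `L(G) = λ(G)''`: the double commutant of the left
translation operators. -/
noncomputable def LG [CompleteSpace H] (δ : HilbertBasis G ℂ H) :
    StarSubalgebra ℂ (H →L[ℂ] H) :=
  StarSubalgebra.centralizer ℂ
    (StarSubalgebra.centralizer ℂ (leftTranslations δ) : Set (H →L[ℂ] H))

end Vale.Agent.P086
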