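import Mathlib
import Vale.Agent.Lib.P086.Core

set_option autoImplicit false

/-! The pairing of two dual systems. -/

namespace Vale.Agent.P086

open FreeGroup (of)

open Filter Topology

variable {𝓗 : Type*} [NormedAddCommGroup 𝓗] [InnerProductSpace ℂ 𝓗] [CompleteSpace 𝓗]

variable {M : StarSubalgebra ℂ (𝓗 →L[ℂ] 𝓗)} {Ω : 𝓗} {ι κ : Type*} [DecidableEq ι] [DecidableEq κ]

/-- One Fox term of the pairing. -/
noncomputable def trm (U : Fam M Ω ι) (Y : Fam M Ω κ) (i : ι) (h : FreeGroup κ)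
    (t : κ × FreeGroup κ × ℂ) (w : 𝓗 →L[ℂ] 𝓗) : ℂ :=
  t.2.2 * inner ℂ (U.u (of i) Ω)
    ((Y.u (h * t.2.1 * (of t.1)⁻¹) * (U.T i * w - w * U.T i) * Y.u t.2.1⁻¹) Ω)

omit [DecidableEq κ] in
theorem norm_trm_le (hΩ : IsTraceVec M Ω) (U : Fam M Ω ι) (Y : Fam M Ω κ) (i : ι)
    (h : FreeGroup κ) (t : κ × FreeGroup κ × ℂ) (ht : ‖t.2.2‖ = 1) {w : 𝓗 →L[ℂ] 𝓗} (hw : w ∈ M) :
    ‖trm U Y i h t w‖ ≤ 2 * ‖w Ω‖ := by
  unfold trm
  rw [norm_mul, ht, one_mul]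
  set g := h * t.2.1 * (of t.1)⁻¹ with hg
  have hstar : star (Y.u g) = Y.u g⁻¹ := Y.star_u g
  have e1 : (inner ℂ (U.u (of i) Ω) ((Y.u g * (U.T i * w - w * U.T i) * Y.u t.2.1⁻¹) Ω) : ℂ) =
      inner ℂ ((Y.u g⁻¹ * U.u (of i)) Ω) (U.T i (w (Y.u t.2.1⁻¹ Ω))) -
      inner ℂ (star w ((Y.u g⁻¹ * U.u (of i)) Ω)) (U.T i (Y.u t.2.1⁻¹ Ω)) := by
    simp only [mul_apply_eq_comp, sub_apply]
    rw [← inner_star_left, hstar, inner_sub_right, inner_star_left]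
  have hv : (Y.u g⁻¹ * U.u (of i)) * star (Y.u g⁻¹ * U.u (of i)) = 1 := by
    rw [star_mul]
    calc Y.u g⁻¹ * U.u (of i) * (star (U.u (of i)) * star (Y.u g⁻¹))
        = Y.u g⁻¹ * (U.u (of i) * star (U.u (of i))) * star (Y.u g⁻¹) := by noncomm_ring
      _ = 1 := by rw [U.u_mul_star, mul_one, Y.u_mul_star]
  have hvM : Y.u g⁻¹ * U.u (of i) ∈ M := mul_mem (Y.mem _) (U.mem _)
  have hΩ1 := hΩ.norm_one
  have n1 : ‖(Y.u g⁻¹ * U.u (of i)) Ω‖ = 1 := by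
    rw [mul_apply_eq_comp, Y.norm_u_apply, U.norm_u_apply, hΩ1]
  have n2 : ‖w (Y.u t.2.1⁻¹ Ω)‖ = ‖w Ω‖ := hΩ.norm_mul_unitary hw (Y.mem _) (Y.u_mul_star _)
  have n3 : ‖star w ((Y.u g⁻¹ * U.u (of i)) Ω)‖ = ‖w Ω‖ := by
    rw [hΩ.norm_mul_unitary (star_mem hw) hvM hv, hΩ.norm_star hw]
  have n4 : ‖Y.u t.2.1⁻¹ Ω‖ = 1 := by rw [Y.norm_u_apply, hΩ1]
  rw [e1]
  refine (norm_sub_le _ _).trans ?_
  have b1 : ‖(inner ℂ ((Y.u g⁻¹ * U.u (of i)) Ω) (U.T i (w (Y.u t.2.1⁻¹ Ω))) : ℂ)‖ ≤ ‖w Ω‖ := by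
    refine (norm_inner_le_norm _ _).trans ?_
    rw [n1, one_mul, ← n2]
    exact U.norm_T_apply_le i _
  have b2 : ‖(inner ℂ (star w ((Y.u g⁻¹ * U.u (of i)) Ω)) (U.T i (Y.u t.2.1⁻¹ Ω)) : ℂ)‖
      ≤ ‖w Ω‖ := by
    refine (norm_inner_le_norm _ _).trans ?_
    rw [n3]
    calc ‖w Ω‖ * ‖U.T i (Y.u t.2.1⁻¹ Ω)‖ ≤ ‖w Ω‖ * 1 :=
          mul_le_mul_of_nonneg_left ((U.norm_T_apply_le i _).trans n4.le) (norm_nonneg _)
      _ = _ := mul_one _
  linarith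

omit [DecidableEq κ] in
theorem trm_add (U : Fam M Ω ι) (Y : Fam M Ω κ) (i : ι) (h : FreeGroup κ)
    (t : κ × FreeGroup κ × ℂ) (w w' : 𝓗 →L[ℂ] 𝓗) :
    trm U Y i h t (w + w') = trm U Y i h t w + trm U Y i h t w' := by
  unfold trm
  rw [← mul_add, ← inner_add_right, ← add_apply]
  congr 4
  noncomm_ring

omit [DecidableEq κ] in
theorem trm_smul (U : Fam M Ω ι) (Y : Fam M Ω κ) (i : ι) (h : FreeGroup κ)
    (t : κ × FreeGroup κ × ℂ) (a : ℂ) (w : 𝓗 →L[ℂ] 𝓗) :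
    trm U Y i h t (a • w) = a * trm U Y i h t w := by
  unfold trm
  have e : Y.u (h * t.2.1 * (of t.1)⁻¹) * (U.T i * (a • w) - (a • w) * U.T i) * Y.u t.2.1⁻¹ =
      a • (Y.u (h * t.2.1 * (of t.1)⁻¹) * (U.T i * w - w * U.T i) * Y.u t.2.1⁻¹) := by
    rw [mul_smul_comm, smul_mul_assoc, ← smul_sub, mul_smul_comm, smul_mul_assoc]
  rw [e, smul_apply, inner_smul_right]
  ring

/-- The `(i,j)` part of the pairing at the word `h`. -/
noncomputable def pr (U : Fam M Ω ι) (Y : Fam M Ω κ) (i : ι) (j : κ) (h : FreeGroup κ)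
    (w : 𝓗 →L[ℂ] 𝓗) : ℂ :=
  ((terms h.toWord).map fun t => if t.1 = j then trm U Y i h t w else 0).sum

/-- number of Fox terms of type `j` -/
def cnt (j : κ) (h : FreeGroup κ) : ℝ :=
  ((terms h.toWord).map fun t => if t.1 = j then (1 : ℝ) else 0).sum

theorem list_norm_sum_le {α : Type*} (l : List α) (f : α → ℂ) (g : α → ℝ)
    (hfg : ∀ t ∈ l, ‖f t‖ ≤ g t) : ‖(l.map f).sum‖ ≤ (l.map g).sum := by
  induction l with
  | nil => simp
  | cons a l ih =>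
    rw [List.map_cons, List.map_cons, List.sum_cons, List.sum_cons]
    refine (norm_add_le _ _).trans (add_le_add (hfg a (by simp)) (ih fun t ht => hfg t ?_))
    exact List.mem_cons_of_mem _ ht

theorem norm_pr_le (hΩ : IsTraceVec M Ω) (U : Fam M Ω ι) (Y : Fam M Ω κ) (i : ι) (j : κ)
    (h : FreeGroup κ) {w : 𝓗 →L[ℂ] 𝓗} (hw : w ∈ M) :
    ‖pr U Y i j h w‖ ≤ cnt j h * (2 * ‖w Ω‖) := by
  unfold pr cnt
  rw [mul_comm, ← List.sum_map_mul_left]
  refine list_norm_sum_le _ _ _ fun t ht => ?_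
  by_cases hj : t.1 = j
  · rw [if_pos hj, if_pos hj, mul_one]
    exact norm_trm_le hΩ U Y i h t (terms_norm_sign _ t ht) hw
  · rw [if_neg hj, if_neg hj, norm_zero, mul_zero]

theorem pr_add (U : Fam M Ω ι) (Y : Fam M Ω κ) (i : ι) (j : κ) (h : FreeGroup κ)
    (w w' : 𝓗 →L[ℂ] 𝓗) : pr U Y i j h (w + w') = pr U Y i j h w + pr U Y i j h w' := by
  unfold pr
  rw [← List.sum_map_add]
  congr 1
  refine List.map_congr_left fun t _ => ?_
  by_cases hj : t.1 = j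
  · simp only [if_pos hj, trm_add]
  · simp only [if_neg hj, add_zero]

theorem pr_smul (U : Fam M Ω ι) (Y : Fam M Ω κ) (i : ι) (j : κ) (h : FreeGroup κ)
    (a : ℂ) (w : 𝓗 →L[ℂ] 𝓗) : pr U Y i j h (a • w) = a * pr U Y i j h w := by
  unfold pr
  rw [← List.sum_map_mul_left]
  congr 1
  refine List.map_congr_left fun t _ => ?_
  by_cases hj : t.1 = j
  · simp only [if_pos hj, trm_smul]
  · simp only [if_neg hj, mul_zero]

theorem cnt_nonneg (j : κ) (h : FreeGroup κ) : 0 ≤ cnt j h := by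
  unfold cnt
  apply List.sum_nonneg
  intro x hx
  obtain ⟨t, _, rfl⟩ := List.mem_map.mp hx
  split_ifs <;> norm_num

theorem sum_list_ite {R : Type*} [AddCommMonoid R] {α : Type*} (J : Finset κ) (l : List α)
    (p : α → κ) (f : α → κ → R) :
    ∑ j ∈ J, (l.map fun t => if p t = j then f t j else 0).sum =
      (l.map fun t => if p t ∈ J then f t (p t) else 0).sum := by
  induction l with
  | nil => simp
  | cons a l ih =>
    simp only [List.map_cons, List.sum_cons, Finset.sum_add_distrib, ih, Finset.sum_ite_eq]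

theorem sum_cnt_le (J : Finset κ) (h : FreeGroup κ) : ∑ j ∈ J, cnt j h ≤ h.norm := by
  unfold cnt
  rw [sum_list_ite J (terms h.toWord) (fun t => t.1) (fun _ _ => (1 : ℝ))]
  calc _ ≤ ((terms h.toWord).map fun _ => (1 : ℝ)).sum := by
        apply List.sum_le_sum
        intro t _
        split_ifs <;> norm_num
    _ = h.norm := by
        simp [terms_length, FreeGroup.norm]

theorem cnt_le (j : κ) (h : FreeGroup κ) : cnt j h ≤ h.norm := by
  simpa using sum_cnt_le {j} h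

/-- Sum over the second index: Fox expansion with respect to `Y`. -/
theorem sum_pr_A [Fintype κ] (U : Fam M Ω ι) (Y : Fam M Ω κ) (i : ι) (h : FreeGroup κ) :
    ∑ j, pr U Y i j h (Y.u (of j)) = inner ℂ (U.b (of i)) (Y.b h) := by
  unfold pr
  rw [sum_list_ite Finset.univ (terms h.toWord) (fun t => t.1)
    (fun t j => trm U Y i h t (Y.u (of j)))]
  simp only [Finset.mem_univ, if_true]
  have hf := fox Y.u (U.T i) h.toWord
  rw [FreeGroup.mk_toWord] at hf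
  have h2 := congrArg (fun x : 𝓗 →L[ℂ] 𝓗 => (inner ℂ (U.u (of i) Ω) (x Ω) : ℂ)) hf
  beta_reduce at h2
  have h3 : ∀ l : List (κ × FreeGroup κ × ℂ), (inner ℂ (U.u (of i) Ω)
      ((l.map fun t => t.2.2 • (Y.u (h * t.2.1 * (of t.1)⁻¹) *
        (U.T i * Y.u (of t.1) - Y.u (of t.1) * U.T i) * Y.u t.2.1⁻¹)).sum Ω) : ℂ) =
      (l.map fun t => trm U Y i h t (Y.u (of t.1))).sum := by
    intro l
    induction l with
    | nil => simp
    | cons a l ih =>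
      rw [List.map_cons, List.sum_cons, List.map_cons, List.sum_cons,
        add_apply, inner_add_right, ih, smul_apply, inner_smul_right]
      rfl
  rw [h3] at h2
  rw [← h2, sub_apply, mul_apply_eq_comp, mul_apply_eq_comp, U.T_Ω, map_zero, sub_zero,
    ← inner_star_left, U.star_T, ← U.b_eq, ← Y.b_eq, U.T_of_mem]
  simp [lastSet]

end Vale.Agent.P086
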