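import Mathlib
import Vale.Agent.Lib.P086.Pairing

set_option autoImplicit false

/-! The trace identity for two dual systems. -/

namespace Vale.Agent.P086

open FreeGroup (of)

open Filter Topology

variable {𝓗 : Type*} [NormedAddCommGroup 𝓗] [InnerProductSpace ℂ 𝓗] [CompleteSpace 𝓗]

variable {M : StarSubalgebra ℂ (𝓗 →L[ℂ] 𝓗)} {Ω : 𝓗} {ι κ : Type*} [DecidableEq ι] [DecidableEq κ]

/-- coefficients of the generator `u i` in the `Y` basis -/
noncomputable def cf (U : Fam M Ω ι) (Y : Fam M Ω κ) (i : ι) (h : FreeGroup κ) : ℂ :=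
  inner ℂ (Y.b h) (U.b (of i))

/-- the regularity assumption -/
def Reg (U : Fam M Ω ι) (Y : Fam M Ω κ) : Prop :=
  ∀ i, Summable fun h : FreeGroup κ => (h.norm : ℝ) * ‖cf U Y i h‖

omit [DecidableEq ι] in
theorem summable_cf {U : Fam M Ω ι} {Y : Fam M Ω κ} (hreg : Reg U Y) (i : ι) :
    Summable fun h : FreeGroup κ => ‖cf U Y i h‖ := by
  have h1 : Summable fun h : FreeGroup κ => if h = 1 then ‖cf U Y i 1‖ else 0 :=
    (hasSum_ite_eq (1 : FreeGroup κ) ‖cf U Y i 1‖).summable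
  refine Summable.of_nonneg_of_le (fun _ => norm_nonneg _) (fun h => ?_) ((hreg i).add h1)
  by_cases hh : h = 1
  · subst hh; simp
  · rw [if_neg hh, add_zero]
    have : (1 : ℝ) ≤ (h.norm : ℝ) := by
      have : h.norm ≠ 0 := fun h0 => hh (FreeGroup.norm_eq_zero.mp h0)
      exact_mod_cast Nat.one_le_iff_ne_zero.mpr this
    nlinarith [norm_nonneg (cf U Y i h)]

omit [DecidableEq ι] in
theorem hasSum_op (hΩ : IsTraceVec M Ω) {U : Fam M Ω ι} {Y : Fam M Ω κ} (hreg : Reg U Y) (i : ι) :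
    HasSum (fun h => cf U Y i h • Y.u h) (U.u (of i)) := by
  have hs : Summable fun h => cf U Y i h • Y.u h := by
    refine Summable.of_norm_bounded (summable_cf hreg i) fun h => ?_
    rw [norm_smul]
    calc _ ≤ ‖cf U Y i h‖ * 1 := mul_le_mul_of_nonneg_left (Y.norm_u_le h) (norm_nonneg _)
      _ = _ := mul_one _
  obtain ⟨V, hV⟩ := hs
  have happ : ∀ v : 𝓗, HasSum (fun h => cf U Y i h • Y.u h v) (V v) := by
    intro v
    have h0 := hV.mapL (ContinuousLinearMap.apply ℂ 𝓗 v)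
    simpa only [ContinuousLinearMap.apply_apply, smul_apply] using h0
  have hVΩ : V Ω = U.u (of i) Ω := by
    have h1 := happ Ω
    have h2 := Y.b.hasSum_repr (U.b (of i))
    have h3 : (fun h => cf U Y i h • Y.u h Ω) = fun h => (Y.b.repr (U.b (of i)) h) • Y.b h := by
      funext h
      rw [Y.b.repr_apply_apply, Y.b_eq, cf, Y.b_eq]
    rw [h3] at h1
    rw [h1.unique h2, U.b_eq]
  have hVeq : V = U.u (of i) := by
    refine U.ext_b fun g => ?_
    have hlim : ∀ v : 𝓗, Tendsto (fun s : Finset (FreeGroup κ) =>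
        ‖((∑ h ∈ s, cf U Y i h • Y.u h) - U.u (of i)) v‖) atTop
        (𝓝 ‖V v - U.u (of i) v‖) := by
      intro v
      have := ((happ v).sub_const (U.u (of i) v)).norm
      refine this.congr fun s => ?_
      congr 1
      simp
    have e : ∀ s : Finset (FreeGroup κ),
        ‖((∑ h ∈ s, cf U Y i h • Y.u h) - U.u (of i)) (U.b g)‖ =
        ‖((∑ h ∈ s, cf U Y i h • Y.u h) - U.u (of i)) Ω‖ := by
      intro s
      rw [U.b_eq]
      refine hΩ.norm_mul_unitary ?_ (U.mem g) (U.u_mul_star g)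
      refine sub_mem (sum_mem fun h _ => ?_) (U.mem _)
      exact M.smul_mem (Y.mem h) _
    have l1 := hlim (U.b g)
    have l2 := hlim Ω
    simp_rw [e] at l1
    have := tendsto_nhds_unique l1 l2
    rw [hVΩ, sub_self, norm_zero, norm_eq_zero, sub_eq_zero] at this
    exact this
  rw [← hVeq]
  exact hV

theorem summable_cf_pr (hΩ : IsTraceVec M Ω) {U : Fam M Ω ι} {Y : Fam M Ω κ} (hreg : Reg U Y)
    (i : ι) (j : κ) {w : 𝓗 →L[ℂ] 𝓗} (hw : w ∈ M) :
    Summable fun h => cf U Y i h * pr U Y i j h w := by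
  refine Summable.of_norm_bounded ((hreg i).mul_right (2 * ‖w Ω‖)) fun h => ?_
  rw [norm_mul, mul_comm (h.norm : ℝ), mul_assoc]
  refine mul_le_mul_of_nonneg_left ?_ (norm_nonneg _)
  exact (norm_pr_le hΩ U Y i j h hw).trans
    (mul_le_mul_of_nonneg_right (cnt_le j h) (by positivity))

/-- the functional -/
noncomputable def Bw (U : Fam M Ω ι) (Y : Fam M Ω κ) (i : ι) (j : κ) (w : 𝓗 →L[ℂ] 𝓗) : ℂ :=
  ∑' h, cf U Y i h * pr U Y i j h w

theorem Bw_add (hΩ : IsTraceVec M Ω) {U : Fam M Ω ι} {Y : Fam M Ω κ} (hreg : Reg U Y)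
    (i : ι) (j : κ) {w w' : 𝓗 →L[ℂ] 𝓗} (hw : w ∈ M) (hw' : w' ∈ M) :
    Bw U Y i j (w + w') = Bw U Y i j w + Bw U Y i j w' := by
  unfold Bw
  rw [← (summable_cf_pr hΩ hreg i j hw).tsum_add (summable_cf_pr hΩ hreg i j hw')]
  congr 1
  funext h
  rw [pr_add, mul_add]

theorem Bw_smul (U : Fam M Ω ι) (Y : Fam M Ω κ)
    (i : ι) (j : κ) (a : ℂ) (w : 𝓗 →L[ℂ] 𝓗) :
    Bw U Y i j (a • w) = a * Bw U Y i j w := by
  unfold Bw
  rw [← tsum_mul_left]
  congr 1
  funext h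
  rw [pr_smul]
  ring

theorem norm_Bw_le (hΩ : IsTraceVec M Ω) {U : Fam M Ω ι} {Y : Fam M Ω κ} (hreg : Reg U Y)
    (i : ι) (j : κ) {w : 𝓗 →L[ℂ] 𝓗} (hw : w ∈ M) :
    ‖Bw U Y i j w‖ ≤ (∑' h : FreeGroup κ, ‖cf U Y i h‖ * cnt j h) * (2 * ‖w Ω‖) := by
  unfold Bw
  have hs : Summable fun h : FreeGroup κ => ‖cf U Y i h‖ * cnt j h := by
    refine Summable.of_nonneg_of_le (fun h => mul_nonneg (norm_nonneg _) (cnt_nonneg j h))
      (fun h => ?_) (hreg i)
    rw [mul_comm (h.norm : ℝ)]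
    exact mul_le_mul_of_nonneg_left (cnt_le j h) (norm_nonneg _)
  rw [← tsum_mul_right]
  refine tsum_of_norm_bounded (hs.mul_right _).hasSum fun h => ?_
  rw [norm_mul, mul_assoc]
  exact mul_le_mul_of_nonneg_left (norm_pr_le hΩ U Y i j h hw) (norm_nonneg _)

theorem sum_map_comm {α β : Type*} (l : List α) (l' : List β) (f : α → β → ℂ) :
    (l.map fun a => (l'.map fun b => f a b).sum).sum =
      (l'.map fun b => (l.map fun a => f a b).sum).sum := by
  have := Multiset.sum_map_sum_map (M := ℂ) (l : Multiset α) (l' : Multiset β) (f := f)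
  simpa using this

omit [CompleteSpace 𝓗] in
theorem map_sum_apply {α : Type*} (l : List α) (f : α → (𝓗 →L[ℂ] 𝓗)) (v w : 𝓗)
    (A B : 𝓗 →L[ℂ] 𝓗) :
    (inner ℂ v ((A * (l.map f).sum * B) w) : ℂ) =
      (l.map fun t => (inner ℂ v ((A * f t * B) w) : ℂ)).sum := by
  induction l with
  | nil => simp
  | cons a l ih =>
    rw [List.map_cons, List.sum_cons, List.map_cons, List.sum_cons, ← ih, ← inner_add_right,
      ← add_apply]
    congr 2
    noncomm_ring

/-- key exchange identity: `pr` at a word of `U` is a Fox sum over that word. -/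
theorem pr_word (hΩ : IsTraceVec M Ω) (U : Fam M Ω ι) (Y : Fam M Ω κ) (i : ι) (j : κ)
    (h : FreeGroup κ) (g : FreeGroup ι) :
    pr U Y i j h (U.u g) = ((terms g.toWord).map fun t' => if t'.1 = i then
      t'.2.2 * inner ℂ (Y.b (of j)) ((U.u (g * t'.2.1 * (of i)⁻¹) *
        (Y.T j * Y.u h - Y.u h * Y.T j) * U.u t'.2.1⁻¹) Ω) else 0).sum := by
  have hL : ∀ t : κ × FreeGroup κ × ℂ, t.1 = j → trm U Y i h t (U.u g) =
      ((terms g.toWord).map fun t' => if t'.1 = i then t.2.2 * t'.2.2 *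
        ((inner ℂ (U.u (of i) Ω) ((Y.u (h * t.2.1 * (of j)⁻¹) * U.u (g * t'.2.1)) Ω)) *
        (inner ℂ Ω ((U.u t'.2.1⁻¹ * Y.u t.2.1⁻¹) Ω))) else 0).sum := by
    intro t ht
    unfold trm
    rw [U.fox_T, map_sum_apply, ← List.sum_map_mul_left, ht]
    congr 1
    refine List.map_congr_left fun t' _ => ?_
    by_cases hi : t'.1 = i
    · rw [if_pos hi, if_pos hi, mul_smul_comm, smul_mul_assoc, smul_apply, inner_smul_right]
      simp only [mul_apply_eq_comp, Fam.P_apply, map_smul, inner_smul_right]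
      ring
    · rw [if_neg hi, if_neg hi]
      simp
  have hR : ∀ t' : ι × FreeGroup ι × ℂ, t'.1 = i →
      (inner ℂ (Y.b (of j)) ((U.u (g * t'.2.1 * (of i)⁻¹) *
        (Y.T j * Y.u h - Y.u h * Y.T j) * U.u t'.2.1⁻¹) Ω) : ℂ) =
      ((terms h.toWord).map fun t => if t.1 = j then t.2.2 *
        ((inner ℂ (Y.u (of j) Ω) ((U.u (g * t'.2.1 * (of i)⁻¹) * Y.u (h * t.2.1)) Ω)) *
        (inner ℂ Ω ((Y.u t.2.1⁻¹ * U.u t'.2.1⁻¹) Ω))) else 0).sum := by
    intro t' ht'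
    rw [Y.fox_T, map_sum_apply]
    congr 1
    refine List.map_congr_left fun t _ => ?_
    by_cases hj : t.1 = j
    · rw [if_pos hj, if_pos hj, mul_smul_comm, smul_mul_assoc, smul_apply, inner_smul_right]
      simp only [mul_apply_eq_comp, Fam.P_apply, map_smul, inner_smul_right, Y.b_eq]
      ring
    · rw [if_neg hj, if_neg hj]
      simp
  have htr : ∀ (b : FreeGroup κ) (a : FreeGroup ι),
      (inner ℂ (U.u (of i) Ω) ((Y.u (h * b * (of j)⁻¹) * U.u (g * a)) Ω) : ℂ) *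
        (inner ℂ Ω ((U.u a⁻¹ * Y.u b⁻¹) Ω)) =
      (inner ℂ (Y.u (of j) Ω) ((U.u (g * a * (of i)⁻¹) * Y.u (h * b)) Ω)) *
        (inner ℂ Ω ((Y.u b⁻¹ * U.u a⁻¹) Ω)) := by
    intro b a
    congr 1
    · rw [← inner_star_right, ← inner_star_right, U.star_u, Y.star_u, ← mul_apply_eq_comp,
        ← mul_apply_eq_comp]
      have := hΩ.comm (U.u (of i)⁻¹ * Y.u (h * b)) (mul_mem (U.mem _) (Y.mem _))
        (Y.u (of j)⁻¹ * U.u (g * a)) (mul_mem (Y.mem _) (U.mem _))
      have e1 : U.u (of i)⁻¹ * (Y.u (h * b * (of j)⁻¹) * U.u (g * a)) =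
          U.u (of i)⁻¹ * Y.u (h * b) * (Y.u (of j)⁻¹ * U.u (g * a)) := by
        rw [_root_.map_mul Y.u (h * b)]; noncomm_ring
      have e2 : Y.u (of j)⁻¹ * (U.u (g * a * (of i)⁻¹) * Y.u (h * b)) =
          Y.u (of j)⁻¹ * U.u (g * a) * (U.u (of i)⁻¹ * Y.u (h * b)) := by
        rw [_root_.map_mul U.u (g * a)]; noncomm_ring
      rw [e1, e2]
      exact this
    · exact hΩ.comm _ (U.mem _) _ (Y.mem _)
  unfold pr
  have s1 : ((terms h.toWord).map fun t => if t.1 = j then trm U Y i h t (U.u g) else 0).sum =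
      ((terms h.toWord).map fun t => ((terms g.toWord).map fun t' =>
        if t'.1 = i then (if t.1 = j then t'.2.2 * (t.2.2 *
        ((inner ℂ (Y.u (of j) Ω) ((U.u (g * t'.2.1 * (of i)⁻¹) * Y.u (h * t.2.1)) Ω)) *
        (inner ℂ Ω ((Y.u t.2.1⁻¹ * U.u t'.2.1⁻¹) Ω)))) else 0) else 0).sum).sum := by
    congr 1
    refine List.map_congr_left fun t _ => ?_
    by_cases hj : t.1 = j
    · simp only [if_pos hj]
      rw [hL t hj]
      congr 1
      refine List.map_congr_left fun t' _ => ?_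
      by_cases hi : t'.1 = i
      · rw [if_pos hi, if_pos hi, htr]
        ring
      · rw [if_neg hi, if_neg hi]
    · simp [if_neg hj]
  rw [s1, sum_map_comm]
  congr 1
  refine List.map_congr_left fun t' _ => ?_
  by_cases hi : t'.1 = i
  · simp only [if_pos hi]
    rw [hR t' hi, ← List.sum_map_mul_left]
    congr 1
    refine List.map_congr_left fun t _ => ?_
    by_cases hj : t.1 = j
    · rw [if_pos hj, if_pos hj]
    · rw [if_neg hj, if_neg hj, mul_zero]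
  · simp [if_neg hi]

omit [DecidableEq ι] in
theorem hasSum_op_apply (hΩ : IsTraceVec M Ω) {U : Fam M Ω ι} {Y : Fam M Ω κ} (hreg : Reg U Y)
    (i : ι) (v : 𝓗) : HasSum (fun h => cf U Y i h • Y.u h v) (U.u (of i) v) := by
  have h0 := (hasSum_op hΩ hreg i).mapL (ContinuousLinearMap.apply ℂ 𝓗 v)
  simpa only [ContinuousLinearMap.apply_apply, smul_apply] using h0

omit [DecidableEq ι] in
theorem hasSum_sandwich (hΩ : IsTraceVec M Ω) {U : Fam M Ω ι} {Y : Fam M Ω κ} (hreg : Reg U Y)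
    (i : ι) (α v : 𝓗) (A B S : 𝓗 →L[ℂ] 𝓗) :
    HasSum (fun h => cf U Y i h * (inner ℂ α ((A * (S * Y.u h - Y.u h * S) * B) v) : ℂ))
      (inner ℂ α ((A * (S * U.u (of i) - U.u (of i) * S) * B) v)) := by
  have h1 := (hasSum_op_apply hΩ hreg i (B v)).mapL (A * S)
  have h2 := (hasSum_op_apply hΩ hreg i (S (B v))).mapL A
  have h3 := (h1.sub h2).mapL (innerSL ℂ α)
  have e1 : (fun h => cf U Y i h * (inner ℂ α ((A * (S * Y.u h - Y.u h * S) * B) v) : ℂ)) =
      fun h => innerSL ℂ α ((A * S) (cf U Y i h • (Y.u h) (B v)) -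
        A (cf U Y i h • (Y.u h) (S (B v)))) := by
    funext h
    simp only [innerSL_apply_apply, mul_apply_eq_comp, sub_apply, map_smul, map_sub,
      inner_sub_right]
    simp only [smul_eq_mul]
    ring
  have e2 : (inner ℂ α ((A * (S * U.u (of i) - U.u (of i) * S) * B) v) : ℂ) =
      innerSL ℂ α ((A * S) ((U.u (of i)) (B v)) - A ((U.u (of i)) (S (B v)))) := by
    simp only [innerSL_apply_apply, mul_apply_eq_comp, sub_apply, map_sub, inner_sub_right]
  rw [e1, e2]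
  exact h3

theorem hasSum_list {α β : Type*} (l : List α) (c : β → ℂ) (F : β → α → ℂ) (G : α → ℂ)
    (h : ∀ t ∈ l, HasSum (fun b => c b * F b t) (G t)) :
    HasSum (fun b => c b * (l.map (F b)).sum) (l.map G).sum := by
  induction l with
  | nil => simp
  | cons a l ih =>
    simp only [List.map_cons, List.sum_cons, mul_add]
    exact (h a (by simp)).add (ih fun t ht => h t (List.mem_cons_of_mem _ ht))

theorem Bw_word (hΩ : IsTraceVec M Ω) {U : Fam M Ω ι} {Y : Fam M Ω κ} (hreg : Reg U Y)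
    (i : ι) (j : κ) (g : FreeGroup ι) :
    Bw U Y i j (U.u g) = ((terms g.toWord).map fun t' => if t'.1 = i then
      t'.2.2 * inner ℂ (Y.b (of j)) ((U.u (g * t'.2.1 * (of i)⁻¹) *
        (Y.T j * U.u (of i) - U.u (of i) * Y.T j) * U.u t'.2.1⁻¹) Ω) else 0).sum := by
  unfold Bw
  simp_rw [pr_word hΩ]
  refine HasSum.tsum_eq (hasSum_list _ _ _ _ fun t' _ => ?_)
  by_cases hi : t'.1 = i
  · simp only [if_pos hi]
    have := (hasSum_sandwich hΩ hreg i (Y.b (of j)) Ω (U.u (g * t'.2.1 * (of i)⁻¹))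
      (U.u t'.2.1⁻¹) (Y.T j)).mul_left t'.2.2
    refine this.congr_fun ?_ |> fun h => h
    intro h
    ring
  · simp only [if_neg hi, mul_zero]
    exact hasSum_zero

theorem sum_Bw_word [Fintype ι] (hΩ : IsTraceVec M Ω) {U : Fam M Ω ι} {Y : Fam M Ω κ}
    (hreg : Reg U Y) (j : κ) (g : FreeGroup ι) :
    ∑ i, Bw U Y i j (U.u g) = inner ℂ (Y.b (of j)) (U.b g) := by
  simp_rw [Bw_word hΩ hreg]
  rw [sum_list_ite Finset.univ (terms g.toWord) (fun t => t.1) (fun t' i => t'.2.2 *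
    (inner ℂ (Y.b (of j)) ((U.u (g * t'.2.1 * (of i)⁻¹) *
        (Y.T j * U.u (of i) - U.u (of i) * Y.T j) * U.u t'.2.1⁻¹) Ω) : ℂ))]
  simp only [Finset.mem_univ, if_true]
  have hf := fox U.u (Y.T j) g.toWord
  rw [FreeGroup.mk_toWord] at hf
  have h2 := congrArg (fun x : 𝓗 →L[ℂ] 𝓗 => (inner ℂ (Y.b (of j)) (x Ω) : ℂ)) hf
  beta_reduce at h2
  have h3 : ∀ l : List (ι × FreeGroup ι × ℂ), (inner ℂ (Y.b (of j))
      ((l.map fun t => t.2.2 • (U.u (g * t.2.1 * (of t.1)⁻¹) *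
        (Y.T j * U.u (of t.1) - U.u (of t.1) * Y.T j) * U.u t.2.1⁻¹)).sum Ω) : ℂ) =
      (l.map fun t => t.2.2 * (inner ℂ (Y.b (of j)) ((U.u (g * t.2.1 * (of t.1)⁻¹) *
        (Y.T j * U.u (of t.1) - U.u (of t.1) * Y.T j) * U.u t.2.1⁻¹) Ω) : ℂ)).sum := by
    intro l
    induction l with
    | nil => simp
    | cons a l ih =>
      rw [List.map_cons, List.sum_cons, List.map_cons, List.sum_cons,
        add_apply, inner_add_right, ih, smul_apply, inner_smul_right]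
  rw [h3] at h2
  rw [← h2, sub_apply, mul_apply_eq_comp, mul_apply_eq_comp, Y.T_Ω, map_zero, sub_zero,
    ← inner_star_left, Y.star_T, ← U.b_eq, Y.T_of_mem]
  simp [lastSet]

theorem sum_Bw_comb [Fintype ι] (hΩ : IsTraceVec M Ω) {U : Fam M Ω ι} {Y : Fam M Ω κ}
    (hreg : Reg U Y) (j : κ) (s : Finset (FreeGroup ι)) (β : FreeGroup ι → ℂ) :
    ∑ i, Bw U Y i j (∑ g ∈ s, β g • U.u g) =
      inner ℂ (Y.b (of j)) ((∑ g ∈ s, β g • U.u g) Ω) := by
  classical
  induction s using Finset.induction_on with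
  | empty =>
    have : ∀ i, Bw U Y i j (0 : 𝓗 →L[ℂ] 𝓗) = 0 := by
      intro i
      have := Bw_smul U Y i j 0 (0 : 𝓗 →L[ℂ] 𝓗)
      simpa using this
    simp [this]
  | insert g s hg ih =>
    rw [Finset.sum_insert hg]
    have hm : ∑ g ∈ s, β g • U.u g ∈ M := sum_mem fun h _ => M.smul_mem (U.mem h) _
    have e : ∀ i, Bw U Y i j (β g • U.u g + ∑ g ∈ s, β g • U.u g) =
        β g * Bw U Y i j (U.u g) + Bw U Y i j (∑ g ∈ s, β g • U.u g) := by
      intro i
      rw [Bw_add hΩ hreg i j (M.smul_mem (U.mem g) _) hm, Bw_smul]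
    simp_rw [e]
    rw [Finset.sum_add_distrib, ← Finset.mul_sum, sum_Bw_word hΩ hreg, ih, add_apply,
      inner_add_right, smul_apply, inner_smul_right, U.b_eq]

theorem sum_Bw [Fintype ι] (hΩ : IsTraceVec M Ω) {U : Fam M Ω ι} {Y : Fam M Ω κ}
    (hreg : Reg U Y) (j : κ) {w : 𝓗 →L[ℂ] 𝓗} (hw : w ∈ M) :
    ∑ i, Bw U Y i j w = inner ℂ (Y.b (of j)) (w Ω) := by
  set C : ℝ := ∑ i, (∑' h : FreeGroup κ, ‖cf U Y i h‖ * cnt j h) * 2 with hC
  set β : FreeGroup ι → ℂ := fun g => U.b.repr (w Ω) g with hβ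
  have hbound : ∀ s : Finset (FreeGroup ι),
      ‖∑ i, Bw U Y i j w - inner ℂ (Y.b (of j)) (w Ω)‖ ≤
        (C + 1) * ‖w Ω - (∑ g ∈ s, β g • U.b g)‖ := by
    intro s
    have hm : ∑ g ∈ s, β g • U.u g ∈ M := sum_mem fun h _ => M.smul_mem (U.mem h) _
    set v := ∑ g ∈ s, β g • U.u g with hv
    have hvΩ : v Ω = ∑ g ∈ s, β g • U.b g := by
      rw [hv]
      simp [U.b_eq]
    have hwv : w - v ∈ M := sub_mem hw hm
    have e1 : ∀ i, Bw U Y i j w = Bw U Y i j (w - v) + Bw U Y i j v := by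
      intro i
      rw [← Bw_add hΩ hreg i j hwv hm, sub_add_cancel]
    have e2 : ∑ i, Bw U Y i j w - inner ℂ (Y.b (of j)) (w Ω) =
        ∑ i, Bw U Y i j (w - v) - inner ℂ (Y.b (of j)) ((w - v) Ω) := by
      simp_rw [e1]
      rw [Finset.sum_add_distrib, sum_Bw_comb hΩ hreg j s β, ← hv, sub_apply, inner_sub_right]
      ring
    rw [e2, ← hvΩ, ← sub_apply]
    refine (norm_sub_le _ _).trans ?_
    rw [add_mul, one_mul]
    refine add_le_add ?_ ?_
    · refine (norm_sum_le _ _).trans ?_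
      rw [hC, Finset.sum_mul]
      refine Finset.sum_le_sum fun i _ => ?_
      rw [mul_assoc]
      exact norm_Bw_le hΩ hreg i j hwv
    · refine (norm_inner_le_norm _ _).trans ?_
      rw [Y.b.orthonormal.1, one_mul]
  have hlim : Tendsto (fun s : Finset (FreeGroup ι) =>
      (C + 1) * ‖w Ω - (∑ g ∈ s, β g • U.b g)‖) atTop (𝓝 0) := by
    have h1 : Tendsto (fun s : Finset (FreeGroup ι) => ∑ g ∈ s, β g • U.b g) atTop (𝓝 (w Ω)) :=
      U.b.hasSum_repr (w Ω)
    have h2 : Tendsto (fun s : Finset (FreeGroup ι) => w Ω - ∑ g ∈ s, β g • U.b g) atTop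
        (𝓝 (w Ω - w Ω)) := tendsto_const_nhds.sub h1
    have h3 := h2.norm.const_mul (C + 1)
    simpa using h3
  have h0 : ‖∑ i, Bw U Y i j w - inner ℂ (Y.b (of j)) (w Ω)‖ ≤ 0 :=
    ge_of_tendsto' hlim hbound
  exact sub_eq_zero.mp (norm_le_zero_iff.mp h0)

theorem sum_Bw_self [Fintype ι] (hΩ : IsTraceVec M Ω) {U : Fam M Ω ι} {Y : Fam M Ω κ}
    (hreg : Reg U Y) (j : κ) : ∑ i, Bw U Y i j (Y.u (of j)) = 1 := by
  rw [sum_Bw hΩ hreg j (Y.mem _), ← Y.b_eq]
  have h := inner_self_eq_norm_sq_to_K (𝕜 := ℂ) (Y.b (of j))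
  rw [Y.b.orthonormal.1] at h
  simpa using h

theorem card_le (hΩ : IsTraceVec M Ω) [Fintype ι] {U : Fam M Ω ι} {Y : Fam M Ω κ}
    (hreg : Reg U Y) (J : Finset κ) :
    (J.card : ℝ) ≤ ∑ i, ∑' h : FreeGroup κ, (h.norm : ℝ) * ‖cf U Y i h‖ * 2 := by
  have hY : ∀ j, ‖Y.u (of j) Ω‖ = 1 := fun j => by rw [← Y.b_eq]; exact Y.b.orthonormal.1 _
  have hs : ∀ i j, Summable fun h : FreeGroup κ => ‖cf U Y i h‖ * cnt j h * 2 := by
    intro i j
    refine Summable.mul_right _ ?_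
    refine Summable.of_nonneg_of_le (fun h => mul_nonneg (norm_nonneg _) (cnt_nonneg j h))
      (fun h => ?_) (hreg i)
    rw [mul_comm (h.norm : ℝ)]
    exact mul_le_mul_of_nonneg_left (cnt_le j h) (norm_nonneg _)
  have h1 : (J.card : ℂ) = ∑ j ∈ J, ∑ i, Bw U Y i j (Y.u (of j)) := by
    rw [Finset.sum_congr rfl fun j _ => sum_Bw_self hΩ hreg j]
    simp
  have h2 : (J.card : ℝ) = ‖(J.card : ℂ)‖ := by simp
  rw [h2, h1]
  refine (norm_sum_le _ _).trans ?_
  calc ∑ j ∈ J, ‖∑ i, Bw U Y i j (Y.u (of j))‖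
      ≤ ∑ j ∈ J, ∑ i, ∑' h : FreeGroup κ, ‖cf U Y i h‖ * cnt j h * 2 := by
        refine Finset.sum_le_sum fun j _ => (norm_sum_le _ _).trans
          (Finset.sum_le_sum fun i _ => ?_)
        have := norm_Bw_le hΩ hreg i j (Y.mem (of j))
        rw [hY, mul_one] at this
        rwa [tsum_mul_right]
    _ = ∑ i, ∑' h : FreeGroup κ, ∑ j ∈ J, ‖cf U Y i h‖ * cnt j h * 2 := by
        rw [Finset.sum_comm]
        refine Finset.sum_congr rfl fun i _ => ?_
        rw [Summable.tsum_finsetSum fun j _ => hs i j]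
    _ ≤ _ := by
        refine Finset.sum_le_sum fun i _ => ?_
        refine Summable.tsum_le_tsum (fun h => ?_) (summable_sum fun j _ => hs i j)
          ((hreg i).mul_right 2)
        rw [← Finset.sum_mul, ← Finset.mul_sum, mul_comm (h.norm : ℝ)]
        gcongr
        exact sum_cnt_le J h

theorem card_eq (hΩ : IsTraceVec M Ω) [Fintype ι] [Fintype κ] {U : Fam M Ω ι} {Y : Fam M Ω κ}
    (hreg : Reg U Y) : Fintype.card ι = Fintype.card κ := by
  have h1 : (Fintype.card κ : ℂ) = ∑ j, ∑ i, Bw U Y i j (Y.u (of j)) := by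
    rw [Finset.sum_congr rfl fun j _ => sum_Bw_self hΩ hreg j]
    simp
  have h2 : ∀ i, ∑ j, Bw U Y i j (Y.u (of j)) = 1 := by
    intro i
    unfold Bw
    rw [← Summable.tsum_finsetSum fun j _ => summable_cf_pr hΩ hreg i j (Y.mem _)]
    simp_rw [← Finset.mul_sum, sum_pr_A, cf]
    have := Y.b.tsum_inner_mul_inner (U.b (of i)) (U.b (of i))
    simp_rw [mul_comm (inner ℂ (U.b (of i)) _ : ℂ)] at this
    rw [this]
    have h := inner_self_eq_norm_sq_to_K (𝕜 := ℂ) (U.b (of i))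
    rw [U.b.orthonormal.1] at h
    simpa using h
  rw [Finset.sum_comm, Finset.sum_congr rfl fun i _ => h2 i] at h1
  simp only [Finset.sum_const, Finset.card_univ, nsmul_eq_mul, mul_one] at h1
  exact_mod_cast h1.symm

/-- Abstract form: two free families in one tracial algebra. -/
theorem abstract_main (hΩ : IsTraceVec M Ω) [Finite ι] {U : Fam M Ω ι} {Y : Fam M Ω κ}
    (hreg : Reg U Y) : Nonempty (ι ≃ κ) := by
  have := Fintype.ofFinite ι
  have hfin : Finite κ := by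
    by_contra hinf
    rw [not_finite_iff_infinite] at hinf
    obtain ⟨n, hn⟩ := exists_nat_gt (∑ i, ∑' h : FreeGroup κ, (h.norm : ℝ) * ‖cf U Y i h‖ * 2)
    obtain ⟨J, hJ⟩ := Infinite.exists_subset_card_eq κ n
    have := card_le hΩ hreg J
    rw [hJ] at this
    linarith
  have := Fintype.ofFinite κ
  exact Fintype.card_eq.mp (card_eq hΩ hreg)

end Vale.Agent.P086
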