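import Mathlib
import Vale.Agent.Lib.P086.Defs
import Vale.Agent.Lib.P086.Main

set_option autoImplicit false

/-! Basic facts on group von Neumann algebras. -/

namespace Vale.Agent.P086

open FreeGroup (of)

section general

variable {G : Type*} {H : Type*} [NormedAddCommGroup H] [InnerProductSpace ℂ H]
  [CompleteSpace H]

theorem ext_basis (δ : HilbertBasis G ℂ H) {x y : H →L[ℂ] H} (h : ∀ g, x (δ g) = y (δ g)) :
    x = y := by
  refine ContinuousLinearMap.ext_on (s := Set.range δ) ?_ ?_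
  · exact Submodule.dense_iff_topologicalClosure_eq_top.mpr δ.dense_span
  · rintro _ ⟨g, rfl⟩
    exact h g

theorem ext_inner_basis (δ : HilbertBasis G ℂ H) {x y : H}
    (h : ∀ g, (inner ℂ (δ g) x : ℂ) = inner ℂ (δ g) y) : x = y := by
  apply δ.repr.injective
  ext g
  rw [δ.repr_apply_apply, δ.repr_apply_apply, h]

/-- the basis reindexed by a permutation -/
noncomputable def permBasis (δ : HilbertBasis G ℂ H) (σ : G ≃ G) : HilbertBasis G ℂ H :=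
  HilbertBasis.mk (v := fun g => δ (σ g)) (δ.orthonormal.comp σ σ.injective) (by
    have : Set.range (fun g => δ (σ g)) = Set.range δ := σ.surjective.range_comp δ
    rw [this, δ.dense_span])

theorem permBasis_apply (δ : HilbertBasis G ℂ H) (σ : G ≃ G) (g : G) :
    permBasis δ σ g = δ (σ g) := by
  unfold permBasis
  rw [HilbertBasis.coe_mk]

/-- the unitary permuting the basis -/
noncomputable def permOp (δ : HilbertBasis G ℂ H) (σ : G ≃ G) : H →L[ℂ] H :=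
  ((δ.repr.trans (permBasis δ σ).repr.symm : H ≃ₗᵢ[ℂ] H) : H →L[ℂ] H)

theorem permOp_apply (δ : HilbertBasis G ℂ H) (σ : G ≃ G) (g : G) :
    permOp δ σ (δ g) = δ (σ g) := by
  classical
  change (permBasis δ σ).repr.symm (δ.repr (δ g)) = δ (σ g)
  rw [δ.repr_self, (permBasis δ σ).repr_symm_single, permBasis_apply]

theorem permOp_inner (δ : HilbertBasis G ℂ H) (σ : G ≃ G) (g : G) (x : H) :
    (inner ℂ (δ (σ g)) (permOp δ σ x) : ℂ) = inner ℂ (δ g) x := by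
  rw [← permOp_apply]
  exact (δ.repr.trans (permBasis δ σ).repr.symm : H ≃ₗᵢ[ℂ] H).inner_map_map _ _

variable [Group G]

/-- left translations as a monoid homomorphism -/
noncomputable def lam (δ : HilbertBasis G ℂ H) : G →* (H →L[ℂ] H) where
  toFun := fun g => permOp δ (Equiv.mulLeft g)
  map_one' := by
    refine ext_basis δ fun h => ?_
    rw [permOp_apply]
    simp
  map_mul' := fun a b => by
    refine ext_basis δ fun h => ?_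
    rw [mul_apply_eq_comp, permOp_apply, permOp_apply, permOp_apply]
    simp [mul_assoc]

theorem lam_apply (δ : HilbertBasis G ℂ H) (g h : G) : lam δ g (δ h) = δ (g * h) :=
  permOp_apply δ (Equiv.mulLeft g) h

theorem star_lam (δ : HilbertBasis G ℂ H) (g : G) : star (lam δ g) = lam δ g⁻¹ := by
  refine ext_basis δ fun h => ?_
  refine ext_inner_basis δ fun k => ?_
  rw [inner_star_right, lam_apply, lam_apply]
  have h1 := permOp_inner δ (Equiv.mulLeft g) (g⁻¹ * h) (δ k)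
  classical
  rw [orthonormal_iff_ite.mp δ.orthonormal, orthonormal_iff_ite.mp δ.orthonormal]
  by_cases hk : g * k = h
  · rw [if_pos hk, if_pos]; rw [← hk]; group
  · rw [if_neg hk, if_neg]; intro h'; apply hk; rw [h']; group

/-- right translations -/
noncomputable def rgt (δ : HilbertBasis G ℂ H) (g : G) : H →L[ℂ] H :=
  permOp δ (Equiv.mulRight g⁻¹)

theorem rgt_apply (δ : HilbertBasis G ℂ H) (g h : G) : rgt δ g (δ h) = δ (h * g⁻¹) :=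
  permOp_apply δ (Equiv.mulRight g⁻¹) h

theorem rgt_inner (δ : HilbertBasis G ℂ H) (g h : G) (x : H) :
    (inner ℂ (δ (h * g⁻¹)) (rgt δ g x) : ℂ) = inner ℂ (δ h) x :=
  permOp_inner δ (Equiv.mulRight g⁻¹) h x

theorem mem_leftTranslations (δ : HilbertBasis G ℂ H) {x : H →L[ℂ] H} :
    x ∈ leftTranslations δ ↔ ∃ g, x = lam δ g := by
  constructor
  · rintro ⟨g, hg⟩
    exact ⟨g, ext_basis δ fun h => by rw [hg, lam_apply]⟩
  · rintro ⟨g, rfl⟩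
    exact ⟨g, fun h => lam_apply δ g h⟩

theorem lam_mem (δ : HilbertBasis G ℂ H) (g : G) : lam δ g ∈ LG δ := by
  unfold LG
  rw [← SetLike.mem_coe, StarSubalgebra.coe_centralizer_centralizer]
  exact Set.subset_centralizer_centralizer (Or.inl ((mem_leftTranslations δ).mpr ⟨g, rfl⟩))

theorem right_mem_centralizer (δ : HilbertBasis G ℂ H) (g : G) : rgt δ g ∈
    Set.centralizer (leftTranslations δ ∪ star (leftTranslations δ)) := by
  rw [Set.mem_centralizer_iff]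
  have hcomm : ∀ a : G, lam δ a * rgt δ g = rgt δ g * lam δ a := by
    intro a
    refine ext_basis δ fun h => ?_
    rw [mul_apply_eq_comp, mul_apply_eq_comp, rgt_apply, lam_apply, lam_apply, rgt_apply,
      mul_assoc]
  rintro m (hm | hm)
  · obtain ⟨a, rfl⟩ := (mem_leftTranslations δ).mp hm
    exact hcomm a
  · obtain ⟨a, ha⟩ := (mem_leftTranslations δ).mp (Set.mem_star.mp hm)
    have : m = lam δ a⁻¹ := by
      rw [← star_star m, ha, star_lam]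
    rw [this]
    exact hcomm _

theorem LG_comm_right (δ : HilbertBasis G ℂ H) {x : H →L[ℂ] H} (hx : x ∈ LG δ) (g : G) :
    x * rgt δ g = rgt δ g * x := by
  unfold LG at hx
  rw [← SetLike.mem_coe, StarSubalgebra.coe_centralizer_centralizer] at hx
  exact (Set.mem_centralizer_iff.mp hx _ (right_mem_centralizer δ g)).symm

theorem LG_apply (δ : HilbertBasis G ℂ H) {x : H →L[ℂ] H} (hx : x ∈ LG δ)
    (g k : G) : (inner ℂ (δ k) (x (δ g)) : ℂ) = inner ℂ (δ (k * g⁻¹)) (x (δ 1)) := by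
  have h1 : δ g = rgt δ g⁻¹ (δ 1) := by
    rw [rgt_apply]; simp
  rw [h1, ← mul_apply_eq_comp, LG_comm_right δ hx, mul_apply_eq_comp]
  have := rgt_inner δ g⁻¹ (k * g⁻¹) (x (δ 1))
  rw [← this]
  congr 2
  group

theorem tau_mul (δ : HilbertBasis G ℂ H) {x y : H →L[ℂ] H} (hx : x ∈ LG δ) :
    (inner ℂ (δ 1) ((x * y) (δ 1)) : ℂ) =
      ∑' g : G, (inner ℂ (δ g⁻¹) (x (δ 1)) : ℂ) * inner ℂ (δ g) (y (δ 1)) := by
  rw [mul_apply_eq_comp, ← inner_star_left, ← δ.tsum_inner_mul_inner]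
  congr 1
  funext g
  rw [inner_star_left, LG_apply δ hx, one_mul]

theorem isTraceVec (δ : HilbertBasis G ℂ H) : IsTraceVec (LG δ) (δ 1) where
  norm_one := δ.orthonormal.1 1
  comm := by
    intro x hx y hy
    rw [tau_mul δ hx, tau_mul δ hy, ← (Equiv.inv G).tsum_eq]
    congr 1
    funext g
    simp [mul_comm]

end general

section iso

variable {G₁ G₂ : Type*} [Group G₁] [Group G₂] {H₁ H₂ : Type*} [NormedAddCommGroup H₁]
  [InnerProductSpace ℂ H₁] [CompleteSpace H₁] [NormedAddCommGroup H₂] [InnerProductSpace ℂ H₂]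
  [CompleteSpace H₂] (δ₁ : HilbertBasis G₁ ℂ H₁) (δ₂ : HilbertBasis G₂ ℂ H₂)

/-- left translations as elements of `L(G)` -/
noncomputable def lamM : G₁ →* LG δ₁ where
  toFun := fun g => ⟨lam δ₁ g, lam_mem δ₁ g⟩
  map_one' := Subtype.ext (lam δ₁).map_one
  map_mul' := fun a b => Subtype.ext ((lam δ₁).map_mul a b)

theorem coe_lamM (g : G₁) : ((lamM δ₁ g : LG δ₁) : H₁ →L[ℂ] H₁) = lam δ₁ g := rfl

theorem star_lamM (g : G₁) : star (lamM δ₁ g) = lamM δ₁ g⁻¹ :=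
  Subtype.ext (star_lam δ₁ g)

theorem norm_sq_eq (v : H₁) (z : H₁ →L[ℂ] H₁) :
    ((‖z v‖ ^ 2 : ℝ) : ℂ) = inner ℂ v ((star z * z) v) := by
  rw [mul_apply_eq_comp, inner_star_right, inner_self_eq_norm_sq_to_K]
  norm_cast

variable {δ₁ δ₂}

theorem norm_iso (θ : LG δ₁ ≃⋆ₐ[ℂ] LG δ₂)
    (hτ : ∀ x : LG δ₁, (inner ℂ (δ₂ 1) ((θ x : H₂ →L[ℂ] H₂) (δ₂ 1)) : ℂ) =
      inner ℂ (δ₁ 1) ((x : H₁ →L[ℂ] H₁) (δ₁ 1)))
    (z : LG δ₁) :
    ‖(z : H₁ →L[ℂ] H₁) (δ₁ 1)‖ = ‖(θ z : H₂ →L[ℂ] H₂) (δ₂ 1)‖ := by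
  have h1 := norm_sq_eq (δ₁ 1) (z : H₁ →L[ℂ] H₁)
  have h2 := norm_sq_eq (δ₂ 1) (θ z : H₂ →L[ℂ] H₂)
  have h3 : (inner ℂ (δ₁ 1) ((star (z : H₁ →L[ℂ] H₁) * (z : H₁ →L[ℂ] H₁)) (δ₁ 1)) : ℂ) =
      inner ℂ (δ₂ 1) ((star (θ z : H₂ →L[ℂ] H₂) * (θ z : H₂ →L[ℂ] H₂)) (δ₂ 1)) := by
    have := hτ (star z * z)
    have hst : θ (star z) = star (θ z) := θ.map_star' z
    rw [map_mul, hst] at this
    exact this.symm
  rw [h3, ← h2] at h1
  have h4 : ‖(z : H₁ →L[ℂ] H₁) (δ₁ 1)‖ ^ 2 = ‖(θ z : H₂ →L[ℂ] H₂) (δ₂ 1)‖ ^ 2 := by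
    exact_mod_cast h1
  exact (sq_eq_sq₀ (norm_nonneg _) (norm_nonneg _)).mp h4

/-- transported left translations -/
noncomputable def tr (θ : LG δ₁ ≃⋆ₐ[ℂ] LG δ₂) : G₂ →* (H₁ →L[ℂ] H₁) where
  toFun := fun h => (θ.symm (lamM δ₂ h) : H₁ →L[ℂ] H₁)
  map_one' := by
    rw [map_one, map_one]; rfl
  map_mul' := fun a b => by
    rw [map_mul, map_mul]; rfl

theorem tr_apply (θ : LG δ₁ ≃⋆ₐ[ℂ] LG δ₂) (h : G₂) :
    tr θ h = (θ.symm (lamM δ₂ h) : H₁ →L[ℂ] H₁) := rfl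

theorem star_tr (θ : LG δ₁ ≃⋆ₐ[ℂ] LG δ₂) (h : G₂) : star (tr θ h) = tr θ h⁻¹ := by
  have hst : θ.symm (star (lamM δ₂ h)) = star (θ.symm (lamM δ₂ h)) :=
    θ.symm.map_star' (lamM δ₂ h)
  rw [tr_apply, tr_apply, ← star_lamM, hst]
  rfl

theorem inner_tr (θ : LG δ₁ ≃⋆ₐ[ℂ] LG δ₂)
    (hτ : ∀ x : LG δ₁, (inner ℂ (δ₂ 1) ((θ x : H₂ →L[ℂ] H₂) (δ₂ 1)) : ℂ) =
      inner ℂ (δ₁ 1) ((x : H₁ →L[ℂ] H₁) (δ₁ 1)))
    (h : G₂) (z : LG δ₁) :
    (inner ℂ (tr θ h (δ₁ 1)) ((z : H₁ →L[ℂ] H₁) (δ₁ 1)) : ℂ) =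
      inner ℂ (δ₂ h) ((θ z : H₂ →L[ℂ] H₂) (δ₂ 1)) := by
  have h1 : (inner ℂ (tr θ h (δ₁ 1)) ((z : H₁ →L[ℂ] H₁) (δ₁ 1)) : ℂ) =
      inner ℂ (δ₁ 1) (((star (θ.symm (lamM δ₂ h)) * z : LG δ₁) : H₁ →L[ℂ] H₁) (δ₁ 1)) := by
    rw [tr_apply, ← inner_star_right]
    rfl
  have hst : θ (star (θ.symm (lamM δ₂ h))) = star (θ (θ.symm (lamM δ₂ h))) :=
    θ.map_star' (θ.symm (lamM δ₂ h))
  rw [h1, ← hτ, map_mul, hst, StarAlgEquiv.apply_symm_apply]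
  have h2 : ((star (lamM δ₂ h) * θ z : LG δ₂) : H₂ →L[ℂ] H₂) =
      star (lam δ₂ h) * (θ z : H₂ →L[ℂ] H₂) := rfl
  rw [h2, mul_apply_eq_comp, inner_star_right, lam_apply, mul_one]

theorem tr_orthonormal (θ : LG δ₁ ≃⋆ₐ[ℂ] LG δ₂)
    (hτ : ∀ x : LG δ₁, (inner ℂ (δ₂ 1) ((θ x : H₂ →L[ℂ] H₂) (δ₂ 1)) : ℂ) =
      inner ℂ (δ₁ 1) ((x : H₁ →L[ℂ] H₁) (δ₁ 1))) :
    Orthonormal ℂ (fun h : G₂ => tr θ h (δ₁ 1)) := by
  classical
  rw [orthonormal_iff_ite]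
  intro h k
  rw [tr_apply θ k, inner_tr θ hτ, StarAlgEquiv.apply_symm_apply, coe_lamM, lam_apply, mul_one]
  exact orthonormal_iff_ite.mp δ₂.orthonormal h k

theorem tr_dense (θ : LG δ₁ ≃⋆ₐ[ℂ] LG δ₂)
    (hτ : ∀ x : LG δ₁, (inner ℂ (δ₂ 1) ((θ x : H₂ →L[ℂ] H₂) (δ₂ 1)) : ℂ) =
      inner ℂ (δ₁ 1) ((x : H₁ →L[ℂ] H₁) (δ₁ 1))) :
    ⊤ ≤ (Submodule.span ℂ (Set.range (fun h : G₂ => tr θ h (δ₁ 1)))).topologicalClosure := by
  set S := (Submodule.span ℂ (Set.range (fun h : G₂ => tr θ h (δ₁ 1)))).topologicalClosure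
  have key : ∀ z : LG δ₁, (z : H₁ →L[ℂ] H₁) (δ₁ 1) ∈ S := by
    intro z
    set ξ := (θ z : H₂ →L[ℂ] H₂) (δ₂ 1) with hξ
    have hs : HasSum (fun h => (δ₂.repr ξ h) • δ₂ h) ξ := δ₂.hasSum_repr ξ
    -- approximants in the algebra
    let w : Finset G₂ → LG δ₁ := fun s => ∑ h ∈ s, (δ₂.repr ξ h) • θ.symm (lamM δ₂ h)
    have hw : ∀ s, θ (w s) = ∑ h ∈ s, (δ₂.repr ξ h) • lamM δ₂ h := by
      intro s
      simp only [w, map_sum, map_smul, StarAlgEquiv.apply_symm_apply]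
    have hnorm : ∀ s, ‖((w s : H₁ →L[ℂ] H₁) (δ₁ 1)) - (z : H₁ →L[ℂ] H₁) (δ₁ 1)‖ =
        ‖∑ h ∈ s, (δ₂.repr ξ h) • δ₂ h - ξ‖ := by
      intro s
      have h1 := norm_iso θ hτ (w s - z)
      rw [map_sub, hw] at h1
      have e1 : ((w s - z : LG δ₁) : H₁ →L[ℂ] H₁) (δ₁ 1) =
          ((w s : H₁ →L[ℂ] H₁) (δ₁ 1)) - (z : H₁ →L[ℂ] H₁) (δ₁ 1) := rfl
      have e2 : (((∑ h ∈ s, (δ₂.repr ξ h) • lamM δ₂ h) - θ z : LG δ₂) :
          H₂ →L[ℂ] H₂) (δ₂ 1) = ∑ h ∈ s, (δ₂.repr ξ h) • δ₂ h - ξ := by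
        have e3 : (((∑ h ∈ s, (δ₂.repr ξ h) • lamM δ₂ h) - θ z : LG δ₂) :
          H₂ →L[ℂ] H₂) = (∑ h ∈ s, (δ₂.repr ξ h) • lam δ₂ h) - (θ z : H₂ →L[ℂ] H₂) := by
          rw [AddSubgroupClass.coe_sub, AddSubmonoidClass.coe_finsetSum]
          rfl
        rw [e3, sub_apply]
        congr 1
        simp [lam_apply]
      rw [e1, e2] at h1
      exact h1
    have hlim : Filter.Tendsto (fun s => (w s : H₁ →L[ℂ] H₁) (δ₁ 1)) Filter.atTop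
        (nhds ((z : H₁ →L[ℂ] H₁) (δ₁ 1))) := by
      rw [tendsto_iff_norm_sub_tendsto_zero]
      simp_rw [hnorm]
      rw [← tendsto_iff_norm_sub_tendsto_zero]
      exact hs
    have hmem : ∀ s, (w s : H₁ →L[ℂ] H₁) (δ₁ 1) ∈
        Submodule.span ℂ (Set.range (fun h : G₂ => tr θ h (δ₁ 1))) := by
      intro s
      have e : (w s : H₁ →L[ℂ] H₁) (δ₁ 1) = ∑ h ∈ s, (δ₂.repr ξ h) • tr θ h (δ₁ 1) := by
        have e3 : (w s : H₁ →L[ℂ] H₁) = ∑ h ∈ s, (δ₂.repr ξ h) • tr θ h := by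
          simp only [w]
          rw [AddSubmonoidClass.coe_finsetSum]
          rfl
        rw [e3]
        simp
      rw [e]
      exact Submodule.sum_mem _ fun h _ => Submodule.smul_mem _ _
        (Submodule.subset_span ⟨h, rfl⟩)
    exact mem_closure_of_tendsto hlim (Filter.Eventually.of_forall hmem)
  have hS : ∀ g : G₁, δ₁ g ∈ S := by
    intro g
    have := key (lamM δ₁ g)
    rwa [coe_lamM, lam_apply, mul_one] at this
  rw [← δ₁.dense_span]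
  refine Submodule.topologicalClosure_minimal _ ?_ (Submodule.isClosed_topologicalClosure _)
  rw [Submodule.span_le]
  rintro _ ⟨g, rfl⟩
  exact hS g

end iso

section free

variable {ι κ : Type*} {H₁ H₂ : Type*} [NormedAddCommGroup H₁]
  [InnerProductSpace ℂ H₁] [CompleteSpace H₁] [NormedAddCommGroup H₂] [InnerProductSpace ℂ H₂]
  [CompleteSpace H₂] {δ₁ : HilbertBasis (FreeGroup ι) ℂ H₁} {δ₂ : HilbertBasis (FreeGroup κ) ℂ H₂}

/-- The family of left translations. -/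
noncomputable def leftFam (δ₁ : HilbertBasis (FreeGroup ι) ℂ H₁) :
    Fam (LG δ₁) (δ₁ 1) ι where
  u := lam δ₁
  mem := fun g => lam_mem δ₁ g
  star_u := fun g => star_lam δ₁ g
  b := δ₁
  b_eq := fun g => by rw [lam_apply, mul_one]

/-- The family transported by a trace preserving isomorphism. -/
noncomputable def trFam (θ : LG δ₁ ≃⋆ₐ[ℂ] LG δ₂)
    (hτ : ∀ x : LG δ₁, (inner ℂ (δ₂ 1) ((θ x : H₂ →L[ℂ] H₂) (δ₂ 1)) : ℂ) =
      inner ℂ (δ₁ 1) ((x : H₁ →L[ℂ] H₁) (δ₁ 1))) :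
    Fam (LG δ₁) (δ₁ 1) κ where
  u := tr θ
  mem := fun h => SetLike.coe_mem _
  star_u := fun h => star_tr θ h
  b := HilbertBasis.mk (tr_orthonormal θ hτ) (tr_dense θ hτ)
  b_eq := fun h => by rw [HilbertBasis.coe_mk]

theorem main_tracial [DecidableEq ι] [DecidableEq κ] [Finite ι]
    (θ : LG δ₁ ≃⋆ₐ[ℂ] LG δ₂)
    (hτ : ∀ x : LG δ₁, (inner ℂ (δ₂ 1) ((θ x : H₂ →L[ℂ] H₂) (δ₂ 1)) : ℂ) =
      inner ℂ (δ₁ 1) ((x : H₁ →L[ℂ] H₁) (δ₁ 1)))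
    (hreg : ∀ (i : ι) (x : LG δ₁),
      (∀ g, (x : H₁ →L[ℂ] H₁) (δ₁ g) = δ₁ (FreeGroup.of i * g)) →
      Summable fun h : FreeGroup κ => (h.norm : ℝ) *
        ‖(inner ℂ (δ₂ h) ((θ x : H₂ →L[ℂ] H₂) (δ₂ 1)) : ℂ)‖) :
    Nonempty (ι ≃ κ) := by
  refine abstract_main (isTraceVec δ₁) (U := leftFam δ₁) (Y := trFam θ hτ) ?_
  intro i
  refine (hreg i (lamM δ₁ (of i)) fun g => lam_apply δ₁ _ g).congr fun h => ?_
  congr 2
  have h1 := inner_tr θ hτ h (lamM _ (of i))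
  have e : cf (leftFam δ₁) (trFam θ hτ) i h = inner ℂ (tr θ h (δ₁ 1))
      ((lamM δ₁ (of i) : H₁ →L[ℂ] H₁) (δ₁ 1)) := by
    unfold cf
    rw [(leftFam δ₁).b_eq, (trFam θ hτ).b_eq]
    rfl
  rw [e, h1]

end free

end Vale.Agent.P086
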